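import Crest.Agent.N255.Dp.Nil

/-!
# Row 255 (helper77): bases adapted to two flags modulo a submodule, dual cycles, depth
-/

set_option autoImplicit false
open Set Filter Topology

noncomputable section

namespace Crest.Agent.N255.Dp

open Tp Wi

section alg

variable {k M : Type} [Field k] [AddCommGroup M] [Module k M]

/-- `x` is a basis of `A` modulo `B` adapted to the submodules in `𝒞` -/
structure Ada (A B : Submodule k M) (𝒞 : Set (Submodule k M)) {ι : Type} [Fintype ι]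
    (x : ι → M) : Prop where
  mem : ∀ i, x i ∈ A
  span : ∀ φ ∈ A, ∃ c : ι → k, φ - ∑ i, c i • x i ∈ B
  ind : ∀ c : ι → k, ∑ i, c i • x i ∈ B → ∀ i, c i = 0
  ada : ∀ C ∈ 𝒞, ∀ c : ι → k, ∑ i, c i • x i ∈ C ⊔ B → ∀ i, x i ∉ C ⊔ B → c i = 0

variable {A B : Submodule k M} {𝒜 ℬ 𝒞 : Set (Submodule k M)}

theorem mem_map_mkQ {C : Submodule k M} {v : M} : B.mkQ v ∈ C.map B.mkQ ↔ v ∈ C ⊔ B := by
  rw [← Submodule.mem_comap, Submodule.comap_map_mkQ, sup_comm]

theorem exists_ada (h : FR A B) (hA : IsChain (· ≤ ·) 𝒜) (hB : IsChain (· ≤ ·) ℬ) :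
    ∃ (n : ℕ) (x : Fin n → M), Ada A B (𝒜 ∪ ℬ) x := by
  classical
  have hm : ∀ {𝒟 : Set (Submodule k M)}, IsChain (· ≤ ·) 𝒟 →
      IsChain (· ≤ ·) ((fun C : Submodule k M => C.map B.mkQ) '' 𝒟) := fun hD =>
    hD.image_of_map_rel _ _ _ fun _ _ h => Submodule.map_mono h
  obtain ⟨s, h1, h2, h3⟩ := Wd.two_flags (hm hA) (hm hB) _ h.fg_map_mkQ
  have hx : ∀ q : s, ∃ v ∈ A, B.mkQ v = q := fun q =>
    (h2 ▸ Submodule.subset_span q.2 : (q : M ⧸ B) ∈ A.map B.mkQ)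
  choose x hxA hxq using hx
  have key : ∀ c : s → k, B.mkQ (∑ i, c i • x i) = ∑ i, c i • (i : M ⧸ B) := fun c => by
    simp only [map_sum, map_smul, hxq]
  have h1' : LinearIndependent k (fun i : s => (i : M ⧸ B)) := h1
  have H : Ada A B (𝒜 ∪ ℬ) x := by
    refine ⟨hxA, fun φ hφ => ?_, fun c hc => ?_, fun C hC c hc i hi => ?_⟩
    · have : B.mkQ φ ∈ Submodule.span k (range fun i : s => (i : M ⧸ B)) := by
        rw [Subtype.range_coe_subtype]
        exact (h2.symm ▸ ⟨φ, hφ, rfl⟩ : B.mkQ φ ∈ Submodule.span k (s : Set (M ⧸ B)))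
      obtain ⟨c, hc⟩ := (Submodule.mem_span_range_iff_exists_fun k).1 this
      refine ⟨c, (Submodule.Quotient.mk_eq_zero B).1 ?_⟩
      show B.mkQ _ = 0
      rw [map_sub, key, hc, sub_self]
    · refine Fintype.linearIndependent_iff.1 h1' c ?_
      rw [← key]; exact (Submodule.Quotient.mk_eq_zero B).2 hc
    · have e := h3 (C.map B.mkQ) (hC.imp (fun h => ⟨C, h, rfl⟩) fun h => ⟨C, h, rfl⟩)
      have h4 : ∑ i, c i • (i : M ⧸ B) ∈ C.map B.mkQ ⊓ A.map B.mkQ := by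
        rw [← key]
        exact ⟨mem_map_mkQ.2 hc, ⟨_, sum_mem fun i _ => A.smul_mem _ (hxA i), rfl⟩⟩
      rw [e] at h4
      have h5 : (s : Set (M ⧸ B)) ∩ (C.map B.mkQ : Set _) =
          (fun i : s => (i : M ⧸ B)) '' {i | (i : M ⧸ B) ∈ C.map B.mkQ} := by
        ext q; constructor
        · rintro ⟨a, b⟩; exact ⟨⟨q, a⟩, b, rfl⟩
        · rintro ⟨q, b, rfl⟩; exact ⟨q.2, b⟩
      rw [h5, Finsupp.mem_span_image_iff_linearCombination] at h4
      obtain ⟨l, hl, e'⟩ := h4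
      have e2 : l = (Finsupp.linearEquivFunOnFinite k k s).symm c := by
        refine h1' ?_
        rw [e', Finsupp.linearCombination_eq_fintype_linearCombination_apply,
          Fintype.linearCombination_apply]
      have := Finsupp.notMem_support_iff.1 fun h => hi (mem_map_mkQ.1 (hxq i ▸ hl h))
      rwa [e2] at this
  refine ⟨s.card, fun i => x (s.equivFin.symm i), fun i => hxA _, fun φ hφ => ?_,
    fun c hc i => ?_, fun C hC c hc i hi => ?_⟩
  · obtain ⟨c, hc⟩ := H.span φ hφ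
    exact ⟨fun i => c (s.equivFin.symm i), by
      rwa [s.equivFin.symm.sum_comp fun i => c i • x i]⟩
  · have := H.ind (fun q => c (s.equivFin q)) (by
      rw [← s.equivFin.symm.sum_comp]; simpa using hc) (s.equivFin.symm i)
    simpa using this
  · have := H.ada C hC (fun q => c (s.equivFin q)) (by
      rw [← s.equivFin.symm.sum_comp]; simpa using hc) (s.equivFin.symm i) hi
    simpa using this

variable {ι : Type} [Fintype ι] {x : ι → M}

theorem Ada.notMem (h : Ada A B 𝒞 x) (i : ι) : x i ∉ B := fun hi => by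
  classical
  have := h.ind (Pi.single i 1) (by simpa [Pi.single_apply] using hi) i
  simp at this

theorem Ada.mono (h : Ada A B 𝒞 x) {𝒟 : Set (Submodule k M)} (hD : 𝒟 ⊆ 𝒞) : Ada A B 𝒟 x :=
  ⟨h.mem, h.span, h.ind, fun C hC => h.ada C (hD hC)⟩

/-- only basis vectors in `C` occur in an element of `C` -/
theorem Ada.coef (h : Ada A B 𝒞 x) {C : Submodule k M} (hC : C ∈ 𝒞) {φ : M} (hφ : φ ∈ C ⊔ B)
    {c : ι → k} (hc : φ - ∑ i, c i • x i ∈ B) {i : ι} (hi : x i ∉ C ⊔ B) : c i = 0 :=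
  h.ada C hC c (by simpa using sub_mem hφ (Submodule.mem_sup_right hc)) i hi

/-- transport along a linear equivalence -/
theorem Ada.map {M' : Type} [AddCommGroup M'] [Module k M'] (h : Ada A B 𝒞 x) (T : M ≃ₗ[k] M') :
    Ada (A.map (T : M →ₗ[k] M')) (B.map (T : M →ₗ[k] M'))
      ((fun C : Submodule k M => C.map (T : M →ₗ[k] M')) '' 𝒞) fun i => T (x i) := by
  have hm : ∀ (C : Submodule k M) (v : M), T v ∈ C.map (T : M →ₗ[k] M') ↔ v ∈ C := fun C v => by
    simp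
  have hs : ∀ c : ι → k, ∑ i, c i • T (x i) = T (∑ i, c i • x i) := fun c => by simp
  refine ⟨fun i => (hm _ _).2 (h.mem i), ?_, fun c hc => h.ind c ?_, ?_⟩
  · rintro _ ⟨φ, hφ, rfl⟩
    obtain ⟨c, hc⟩ := h.span φ hφ
    exact ⟨c, by rw [hs]; exact ⟨_, hc, by simp⟩⟩
  · rwa [hs, hm] at hc
  · rintro _ ⟨C, hC, rfl⟩ c hc i hi
    rw [← Submodule.map_sup] at hc hi
    rw [hs, hm] at hc
    exact h.ada C hC c hc i fun h' => hi ((hm _ _).2 h')

/-- independent functionals have a dual family -/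
theorem exists_dual {V : Type} [AddCommGroup V] [Module k V] [DecidableEq ι] (Z : Submodule k V)
    (f : ι → V →ₗ[k] k) (hf : ∀ c : ι → k, (∀ z ∈ Z, ∑ i, c i * f i z = 0) → ∀ i, c i = 0) :
    ∃ z : ι → V, (∀ i, z i ∈ Z) ∧ ∀ i j, f j (z i) = if j = i then 1 else 0 := by
  have hs : Z.map (LinearMap.pi f) = ⊤ := by
    by_contra hne
    obtain ⟨g, hg, hz⟩ := Submodule.exists_le_ker_of_lt_top _ (lt_top_iff_ne_top.2 hne)
    have e : ∀ v : ι → k, g v = ∑ i, g (Pi.single i 1) * v i := fun v => by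
      rw [LinearMap.pi_apply_eq_sum_univ]
      refine Finset.sum_congr rfl fun i _ => ?_
      rw [smul_eq_mul, mul_comm]; congr 2; funext j; simp [Pi.single_apply, eq_comm]
    refine hg (LinearMap.ext fun v => ?_)
    have := hf (fun i => g (Pi.single i 1)) fun z hz' => by
      have h0 : g (LinearMap.pi f z) = 0 := hz ⟨z, hz', rfl⟩
      rwa [e] at h0
    rw [e]; simp [this]
  have : ∀ i, ∃ z ∈ Z, LinearMap.pi f z = Pi.single i 1 := fun i =>
    (hs ▸ Submodule.mem_top : (Pi.single i 1 : ι → k) ∈ Z.map (LinearMap.pi f))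
  choose z h1 h2 using this
  exact ⟨z, h1, fun i j => by simpa [Pi.single_apply] using congrFun (h2 i) j⟩

open Classical in
/-- the depth: the first `n` with `v ∈ C n` (zero if there is none) -/
def dp (C : ℕ → Submodule k M) (v : M) : ℕ := sInf {n | v ∈ C n}

theorem dp_mem {C : ℕ → Submodule k M} {v : M} {n : ℕ} (h : v ∈ C n) : v ∈ C (dp C v) :=
  Nat.sInf_mem (s := {n | v ∈ C n}) ⟨n, h⟩

theorem dp_le {C : ℕ → Submodule k M} {v : M} {n : ℕ} (h : v ∈ C n) : dp C v ≤ n :=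
  Nat.sInf_le (s := {n | v ∈ C n}) h

theorem notMem_of_lt_dp {C : ℕ → Submodule k M} {v : M} {n : ℕ} (h : n < dp C v) : v ∉ C n :=
  fun h' => (dp_le h').not_gt h

/-- **the transfer raises the depth**: `φ` lives at `j` (`m` steps before `j'`), `x` is an adapted
basis at `j'`; a basis vector occurs in `φ` only if its depth is at most `dp φ - m`. -/
theorem Ada.dp_add_le {J : Type} {Nx : J → J → Prop} {E : J → Submodule k M}
    (hE : ∀ a b, Nx a b → E a ≤ E b) {j j' : J} {m : ℕ} (hj : St Nx m j j')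
    (h : Ada A (E j') 𝒞 x) (hC : ∀ n, G Nx E n j' ∈ 𝒞) {φ : M} {N : ℕ} (hφ : φ ∈ G Nx E N j)
    {c : ι → k} (hc : φ - ∑ i, c i • x i ∈ E j') {i : ι} (hi : c i ≠ 0) :
    dp (fun n => G Nx E n j') (x i) + m ≤ dp (fun n => G Nx E n j) φ := by
  have h0 := dp_mem (C := fun n => G Nx E n j) hφ
  set d := dp (fun n => G Nx E n j) φ
  have hle : ∀ n, E j' ≤ G Nx E n j' := fun n => G_zero.ge.trans (G_mono hE j' (Nat.zero_le n))
  by_cases hd : m ≤ d
  · obtain ⟨n, hn⟩ := Nat.exists_eq_add_of_le' hd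
    have h1 : φ ∈ G Nx E n j' := G_step hj (hn ▸ h0)
    have h2 : x i ∈ G Nx E n j' := by
      by_contra h2
      exact hi (h.coef (hC n) (Submodule.mem_sup_left h1) hc (by rwa [sup_eq_left.2 (hle n)]))
    have := dp_le (C := fun n => G Nx E n j') h2
    omega
  · have h1 : φ ∈ E j' := mem_G.1 (G_mono hE j (not_le.1 hd).le h0) _ hj
    exact (hi (h.ind c (by simpa using sub_mem h1 hc) i)).elim

end alg

section top

variable {k : Type} [Field k] {T J : Type} [TopologicalSpace T] {s : J → T → ℝ} {n : ℕ}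
  {Nx : J → J → Prop}

/-- nilpotency for families `P j` between two levels, steps of size `ε` -/
theorem nil_sb {ε : ℝ} (hε : 0 < ε) (hs : ∀ a b, Nx a b → ∀ x, s b x + ε ≤ s a x) (S : Finset J)
    (hc : ∀ j ∈ S, Continuous (s j))
    (hF : ∀ j, ∃ j₀ ∈ S, ∃ h : T ≃ₜ T, ∀ x, s j (h x) = s j₀ x)
    (hT : rcyc k T n ≤ (On univ).B k n) {a b : ℝ}
    (hq : ∀ j ∈ S, ∃ c, FR ((On (Sd s j b)).ch k n ⊓ rcyc k T n) ((On (Sd s j c)).B k n))
    {P : J → Sb T} (ha : ∀ j, (On (Sd s j a)).Le (P j)) (hb : ∀ j, (P j).Le (On (Sd s j b))) :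
    ∃ N : ℕ, ∀ m, N ≤ m → ∀ j j', St Nx m j j' → (P j').ch k n ⊓ rcyc k T n ≤ (P j).B k n := by
  obtain ⟨C, hC⟩ := fill S hc hF hT hq
  obtain ⟨N, hN⟩ := exists_nat_ge ((a - C) / ε)
  refine ⟨N, fun m hm j j' h => (inf_le_inf_right _ (Sb.ch_mono (hb j'))).trans
    ((hC j').trans (Sb.B_mono (Sb.Le.trans (On_le fun x hx => ?_) (ha j))))⟩
  have h1 := h.lev (s := fun j x => s j x / ε) (fun a b hab x => by
    rw [div_add_one hε.ne']; exact div_le_div_of_nonneg_right (hs a b hab x) hε.le) x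
  have h2 : (N : ℝ) ≤ m := by exact_mod_cast hm
  have h3 : C < s j' x := hx
  show a < s j x
  rw [div_add' _ _ _ hε.ne', div_le_div_iff_of_pos_right hε] at h1
  rw [div_le_iff₀ hε] at hN
  nlinarith

/-- every cocycle has finite depth -/
theorem Z_le_G {P : J → Sb T} {N : ℕ} {j : J}
    (h : ∀ j', St Nx N j j' → (P j').ch k (n + 1) ⊓ rcyc k T (n + 1) ≤ (P j).B k (n + 1))
    (A : Type) [AddCommGroup A] [Module k A] :
    (P j).Z k A (n + 1) ≤ G Nx (fun j => (P j).Ex k A (n + 1)) N j := fun φ hφ =>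
  mem_G.2 fun j' h' => Det.ex_of_cyc _ φ fun _ hc h0 => Sb.ev_B hφ (h j' h' ⟨hc, h0⟩)

theorem ev_Ex {P : Sb T} {A : Type} [AddCommGroup A] [Module k A] {φ : Co A (n + 1) T}
    (hφ : φ ∈ P.Ex k A (n + 1)) {c : Ch k (n + 1) T} (hc : c ∈ P.ch k (n + 1)) (h0 : bd k c = 0) :
    ev k φ c = 0 := by
  obtain ⟨ψ, hψ⟩ := Sb.mem_Ex.1 hφ
  rw [Sb.ev_congr hψ hc, ← ev_bd, h0, map_zero]

theorem ev_sum {ι : Type} [Fintype ι] (c : ι → k) (x : ι → Co k n T) (z : Ch k n T) :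
    ev k (∑ i, c i • x i) z = ∑ i, c i * ev k (x i) z := by
  classical
  induction (Finset.univ : Finset ι) using Finset.induction_on with
  | empty => simp
  | insert a t ha ih => rw [Finset.sum_insert ha, Finset.sum_insert ha, ev_add, ev_smul, ih]; rfl

variable {ι : Type} [Fintype ι] [DecidableEq ι] {P : Sb T} {A : Submodule k (Co k (n + 1) T)}
  {𝒞 : Set (Submodule k (Co k (n + 1) T))} {x : ι → Co k (n + 1) T}

/-- dual cycles -/
theorem Ada.exists_cyc (h : Ada A (P.Ex k k (n + 1)) 𝒞 x) :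
    ∃ z : ι → Ch k (n + 1) T, (∀ i, z i ∈ P.ch k (n + 1) ∧ bd k (z i) = 0) ∧
      ∀ i j, ev k (x j) (z i) = if j = i then 1 else 0 :=
  exists_dual (P.ch k (n + 1) ⊓ LinearMap.ker (bd k)) (fun i => ev k (x i)) fun c hc =>
    h.ind c (Det.ex_of_cyc _ _ fun z hz h0 => by rw [ev_sum]; exact hc z ⟨hz, h0⟩)

/-- the coordinates are the periods over the dual cycles -/
theorem ev_dual {z : ι → Ch k (n + 1) T} (hz : ∀ i, z i ∈ P.ch k (n + 1) ∧ bd k (z i) = 0)
    (hd : ∀ i j, ev k (x j) (z i) = if j = i then 1 else 0) {φ : Co k (n + 1) T} {c : ι → k}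
    (hc : φ - ∑ i, c i • x i ∈ P.Ex k k (n + 1)) (i : ι) : ev k φ (z i) = c i := by
  have := ev_Ex hc (hz i).1 (hz i).2
  rw [ev_sub, ev_sum, sub_eq_zero] at this
  simp [this, hd]

/-- a class in `C` has no period over the cycles dual to the basis vectors outside `C` -/
theorem Ada.ev_eq_zero (h : Ada A (P.Ex k k (n + 1)) 𝒞 x) {z : ι → Ch k (n + 1) T}
    (hz : ∀ i, z i ∈ P.ch k (n + 1) ∧ bd k (z i) = 0)
    (hd : ∀ i j, ev k (x j) (z i) = if j = i then 1 else 0) {C : Submodule k (Co k (n + 1) T)}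
    (hC : C ∈ 𝒞) {φ : Co k (n + 1) T} (hA : φ ∈ A) (hφ : φ ∈ C ⊔ P.Ex k k (n + 1)) {i : ι}
    (hi : x i ∉ C ⊔ P.Ex k k (n + 1)) : ev k φ (z i) = 0 := by
  obtain ⟨c, hc⟩ := h.span φ hA
  rw [ev_dual hz hd hc, h.coef hC hφ hc hi]

/-- period form of `Ada.dp_add_le` -/
theorem Ada.dp_ev {Q : J → Sb T} (hQ : ∀ a b, Nx a b → (Q b).Le (Q a)) {j j' : J} {m : ℕ}
    (hj : St Nx m j j') (h : Ada A ((Q j').Ex k k (n + 1)) 𝒞 x)
    (hC : ∀ l, G Nx (fun j => (Q j).Ex k k (n + 1)) l j' ∈ 𝒞) {z : ι → Ch k (n + 1) T}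
    (hz : ∀ i, z i ∈ (Q j').ch k (n + 1) ∧ bd k (z i) = 0)
    (hd : ∀ i j, ev k (x j) (z i) = if j = i then 1 else 0) {φ : Co k (n + 1) T} (hA : φ ∈ A)
    {N : ℕ} (hφ : φ ∈ G Nx (fun j => (Q j).Ex k k (n + 1)) N j) {i : ι} (hi : ev k φ (z i) ≠ 0) :
    dp (fun l => G Nx (fun j => (Q j).Ex k k (n + 1)) l j') (x i) + m ≤
      dp (fun l => G Nx (fun j => (Q j).Ex k k (n + 1)) l j) φ := by
  obtain ⟨c, hc⟩ := h.span φ hA
  exact h.dp_add_le (fun a b hab => Sb.Ex_mono (hQ a b hab)) hj hC hφ hc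
    (by rwa [ev_dual hz hd hc] at hi)

end top

end Crest.Agent.N255.Dp

end
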