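import Crest.Agent.N255.Tp.All
import Crest.Agent.N255.Wi.Abs
import Crest.Agent.N255.Wd.Two

/-!
# Row 255 (helper77): depth along the tree

`St Nx n j j'`: `n` steps.  `G` (classes which die after `n` steps) and `H` (cycles which come from
depth `n`) are the depth flags; `nil_hom`, `nil_coh`: they are finite for the sides of an acyclic
space; `exists_ada`: bases adapted to two flags modulo a submodule.
-/

set_option autoImplicit false
open Set Filter Topology

noncomputable section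

namespace Crest.Agent.N255.Dp

open Tp Wi

/-- `n` steps of a relation -/
inductive St {J : Type} (Nx : J → J → Prop) : ℕ → J → J → Prop
  | zero (j : J) : St Nx 0 j j
  | succ {n : ℕ} {j j' j'' : J} : Nx j j' → St Nx n j' j'' → St Nx (n + 1) j j''

namespace St

variable {J : Type} {Nx : J → J → Prop} {n m : ℕ} {j j' j'' : J}

theorem eq_of_zero (h : St Nx 0 j j') : j = j' := by cases h; rfl

theorem one (h : Nx j j') : St Nx 1 j j' := .succ h (.zero _)

theorem trans (h : St Nx n j j') (h' : St Nx m j' j'') : St Nx (m + n) j j'' := by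
  induction h with
  | zero => exact h'
  | succ a _ ih => exact .succ a (ih h')

theorem snoc (h : St Nx n j j') (h' : Nx j' j'') : St Nx (n + 1) j j'' := by
  simpa [add_comm] using h.trans (one h')

theorem split (m : ℕ) : ∀ {j : J}, St Nx (n + m) j j'' → ∃ j', St Nx m j j' ∧ St Nx n j' j'' := by
  induction m with
  | zero => exact fun h => ⟨_, .zero _, h⟩
  | succ m ih =>
    intro j h
    cases h with
    | succ a h =>
      obtain ⟨j', h1, h2⟩ := ih h
      exact ⟨j', .succ a h1, h2⟩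

theorem unsnoc (h : St Nx (n + 1) j j'') : ∃ j', St Nx n j j' ∧ Nx j' j'' := by
  obtain ⟨j', h1, h2⟩ := split (n := 1) n (by simpa [add_comm] using h)
  cases h2 with
  | succ a h => exact ⟨j', h1, h.eq_of_zero ▸ a⟩

theorem map {J' : Type} {Nx' : J' → J' → Prop} (f : J → J') (hf : ∀ a b, Nx a b → Nx' (f a) (f b))
    (h : St Nx n j j') : St Nx' n (f j) (f j') := by
  induction h with
  | zero => exact .zero _
  | succ a _ ih => exact .succ (hf _ _ a) ih

theorem rel {α : Type*} [Preorder α] {E : J → α} (hE : ∀ a b, Nx a b → E a ≤ E b)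
    (h : St Nx n j j') : E j ≤ E j' := by
  induction h with
  | zero => exact le_rfl
  | succ a _ ih => exact (hE _ _ a).trans ih

/-- levels grow by one at every step -/
theorem lev {T : Type} {s : J → T → ℝ} (hs : ∀ a b, Nx a b → ∀ x, s b x + 1 ≤ s a x)
    (h : St Nx n j j') (x : T) : s j' x + n ≤ s j x := by
  induction h with
  | zero => simp
  | succ a _ ih => have := hs _ _ a x; push_cast; linarith

end St

section flags

variable {k M J : Type} [CommRing k] [AddCommGroup M] [Module k M] (Nx : J → J → Prop)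
  (E : J → Submodule k M)

/-- what dies after `n` steps (`E j`: what is trivial at `j`) -/
def G (n : ℕ) (j : J) : Submodule k M := ⨅ (j' : J) (_ : St Nx n j j'), E j'

/-- what comes from depth `n` (`E j`: what lives at `j`) -/
def H (n : ℕ) (j : J) : Submodule k M := ⨆ (j' : J) (_ : St Nx n j j'), E j'

variable {Nx E} {n m : ℕ} {j j' : J} {x : M}

theorem mem_G : x ∈ G Nx E n j ↔ ∀ j', St Nx n j j' → x ∈ E j' := by
  simp [G, Submodule.mem_iInf]

theorem H_le {C : Submodule k M} : H Nx E n j ≤ C ↔ ∀ j', St Nx n j j' → E j' ≤ C := by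
  simp [H]

theorem le_H (h : St Nx n j j') : E j' ≤ H Nx E n j :=
  le_iSup₂_of_le (f := fun j' (_ : St Nx n j j') => E j') j' h le_rfl

theorem G_zero : G Nx E 0 j = E j :=
  le_antisymm (fun _ h => mem_G.1 h j (.zero j)) fun _ h =>
    mem_G.2 fun _ h' => h'.eq_of_zero ▸ h

theorem H_zero : H Nx E 0 j = E j :=
  le_antisymm (H_le.2 fun _ h => h.eq_of_zero ▸ le_rfl) (le_H (.zero j))

/-- a step lowers the depth -/
theorem G_step (h : St Nx m j j') : G Nx E (n + m) j ≤ G Nx E n j' :=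
  fun _ hx => mem_G.2 fun _ h' => mem_G.1 hx _ (h.trans h')

theorem H_step (h : St Nx m j j') : H Nx E n j' ≤ H Nx E (n + m) j :=
  H_le.2 fun _ h' => le_H (h.trans h')

theorem G_mono (hE : ∀ a b, Nx a b → E a ≤ E b) (j : J) : Monotone fun n => G Nx E n j := by
  intro n m h x hx
  obtain ⟨l, rfl⟩ := Nat.exists_eq_add_of_le' h
  refine mem_G.2 fun j'' h'' => ?_
  obtain ⟨j', h1, h2⟩ := h''.split
  exact h2.rel hE (mem_G.1 hx _ h1)

theorem H_anti (hE : ∀ a b, Nx a b → E b ≤ E a) (j : J) : Antitone fun n => H Nx E n j := by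
  intro n m h
  obtain ⟨l, rfl⟩ := Nat.exists_eq_add_of_le' h
  refine H_le.2 fun j'' h'' => ?_
  obtain ⟨j', h1, h2⟩ := h''.split
  have h3 : E j'' ≤ E j' := h2.rel (α := (Submodule k M)ᵒᵈ) (E := E) hE
  exact h3.trans (le_H h1)

theorem isChain_G (hE : ∀ a b, Nx a b → E a ≤ E b) (j : J) :
    IsChain (· ≤ ·) (range fun n => G Nx E n j) := by
  rintro _ ⟨n, rfl⟩ _ ⟨m, rfl⟩ -
  exact (le_total n m).imp (fun h => G_mono hE j h) fun h => G_mono hE j h

/-- equivariance: `f` moves the indices, `T` the classes -/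
theorem G_map (f : J ≃ J) (hf : ∀ a b, Nx (f a) (f b) → Nx a b) (T : M →ₗ[k] M)
    (hT : ∀ a, ∀ y ∈ E a, T y ∈ E (f a)) (hx : x ∈ G Nx E n j) : T x ∈ G Nx E n (f j) := by
  refine mem_G.2 fun j' h => ?_
  have := h.map (Nx' := Nx) f.symm fun a b hab => hf _ _ (by simpa using hab)
  rw [f.symm_apply_apply] at this
  simpa using hT _ _ (mem_G.1 hx _ this)

theorem H_map (f : J → J) (hf : ∀ a b, Nx a b → Nx (f a) (f b)) (T : M →ₗ[k] M)
    (hT : ∀ a, ∀ y ∈ E a, T y ∈ E (f a)) (hx : x ∈ H Nx E n j) : T x ∈ H Nx E n (f j) := by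
  have : H Nx E n j ≤ (H Nx E n (f j)).comap T :=
    H_le.2 fun j' h y hy => le_H (h.map f hf) (hT _ _ hy)
  exact this hx

end flags

section top

variable {k : Type} [Field k] {T J : Type} [TopologicalSpace T] {s : J → T → ℝ} {n : ℕ}

/-- the side of `j` at the level `t` -/
def Sd (s : J → T → ℝ) (j : J) (t : ℝ) : Set T := {x | t < s j x}

omit [TopologicalSpace T] in
theorem Sd_anti (j : J) {t t' : ℝ} (h : t ≤ t') : Sd s j t' ⊆ Sd s j t := fun _ hx => h.trans_lt hx

theorem isOpen_Sd {j : J} (h : Continuous (s j)) (t : ℝ) : IsOpen (Sd s j t) :=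
  isOpen_lt continuous_const h

omit [TopologicalSpace T] in
theorem Sd_st {Nx : J → J → Prop} (hs : ∀ a b, Nx a b → ∀ x, s b x + 1 ≤ s a x) {m : ℕ} {j j' : J}
    (h : St Nx m j j') {t t' : ℝ} (ht : t ≤ t' + m) : Sd s j' t' ⊆ Sd s j t := fun x hx => by
  have := h.lev hs x
  have hx' : t' < s j' x := hx
  show t < s j x
  linarith

/-- a family of finite rank of cycles of an acyclic space bounds at a bounded level -/
theorem fill_one {j : J} (hc : Continuous (s j)) {Z : Submodule k (Ch k n T)}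
    (hZ : Z ≤ (On univ).B k n) {c : ℝ} (hq : FR Z ((On (Sd s j c)).B k n)) :
    ∃ C : ℝ, Z ≤ (On (Sd s j C)).B k n := by
  refine hq.le_of_directed (T := fun t => (On (Sd s j t)).B k n) (fun a b => ⟨min a b,
    B_mono (Sd_anti j (min_le_left _ _)), B_mono (Sd_anti j (min_le_right _ _))⟩) c fun z hz => ?_
  obtain ⟨b, -, rfl⟩ := hZ hz
  obtain ⟨C, hC⟩ := ((isCompact_car b).image hc).bddBelow
  refine ⟨C - 1, Sb.bd_mem_B (mem_ch_iff_car.2 fun x hx => ?_)⟩
  have := hC ⟨x, hx, rfl⟩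
  show C - 1 < s j x
  linarith

theorem push_rcyc {X Y : Type} [TopologicalSpace X] [TopologicalSpace Y] (f : C(X, Y)) :
    ∀ {n} {c : Ch k n X}, c ∈ rcyc k X n → push k f c ∈ rcyc k Y n
  | 0, c, h => by
    have h' : aug k c = 0 := h
    show aug k (push k f c) = 0
    rw [aug_push, h']
  | n + 1, c, h => by
    have h' : bd k c = 0 := h
    show bd k (push k f c) = 0
    rw [bd_push, h', map_zero]

/-- uniform fillings: finitely many orbits, tame sides -/
theorem fill (S : Finset J) (hc : ∀ j ∈ S, Continuous (s j))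
    (hF : ∀ j, ∃ j₀ ∈ S, ∃ h : T ≃ₜ T, ∀ x, s j (h x) = s j₀ x)
    (hT : rcyc k T n ≤ (On univ).B k n) {b : ℝ}
    (hq : ∀ j ∈ S, ∃ c, FR ((On (Sd s j b)).ch k n ⊓ rcyc k T n) ((On (Sd s j c)).B k n)) :
    ∃ C : ℝ, ∀ j, (On (Sd s j b)).ch k n ⊓ rcyc k T n ≤ (On (Sd s j C)).B k n := by
  have h1 : ∀ j ∈ S, ∀ᶠ C in atBot,
      (On (Sd s j b)).ch k n ⊓ rcyc k T n ≤ (On (Sd s j C)).B k n := fun j hj => by
    obtain ⟨c, h⟩ := hq j hj
    obtain ⟨C, hC⟩ := fill_one (hc j hj) (inf_le_right.trans hT) h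
    exact (eventually_le_atBot C).mono fun C' h' => hC.trans (B_mono (Sd_anti j h'))
  obtain ⟨C, hC⟩ := ((eventually_all_finset S).2 h1).exists
  refine ⟨C, fun j z hz => ?_⟩
  obtain ⟨j₀, h₀, h, e⟩ := hF j
  have h2 : push k (h.symm : C(T, T)) z ∈ (On (Sd s j₀ C)).B k n := by
    refine hC j₀ h₀ ⟨push_mem (fun x hx => ?_) hz.1, push_rcyc _ hz.2⟩
    show b < s j₀ (h.symm x)
    rw [← e, h.apply_symm_apply]; exact hx
  have h3 := push_mem_B (f := (h : C(T, T))) (V := Sd s j C) (fun x hx => by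
    show C < s j (h x)
    rw [e]; exact hx) h2
  rwa [push_push, show (h : C(T, T)).comp (h.symm : C(T, T)) = ContinuousMap.id T from
    ContinuousMap.ext fun x => h.apply_symm_apply x, push_id] at h3

variable {Nx : J → J → Prop}

/-- **depth nilpotency**, homology -/
theorem nil_hom (hs : ∀ a b, Nx a b → ∀ x, s b x + 1 ≤ s a x) (S : Finset J)
    (hc : ∀ j ∈ S, Continuous (s j))
    (hF : ∀ j, ∃ j₀ ∈ S, ∃ h : T ≃ₜ T, ∀ x, s j (h x) = s j₀ x)
    (hT : rcyc k T n ≤ (On univ).B k n) (a : ℝ) {b : ℝ}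
    (hq : ∀ j ∈ S, ∃ c, FR ((On (Sd s j b)).ch k n ⊓ rcyc k T n) ((On (Sd s j c)).B k n)) :
    ∃ N : ℕ, ∀ m, N ≤ m → ∀ j j', St Nx m j j' →
      (On (Sd s j' b)).ch k n ⊓ rcyc k T n ≤ (On (Sd s j a)).B k n := by
  obtain ⟨C, hC⟩ := fill S hc hF hT hq
  obtain ⟨N, hN⟩ := exists_nat_ge (a - C)
  refine ⟨N, fun m hm j j' h => (hC j').trans (B_mono (Sd_st hs h ?_))⟩
  have : (N : ℝ) ≤ m := by exact_mod_cast hm
  linarith

/-- **depth nilpotency**, cohomology with arbitrary coefficients -/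
theorem nil_coh (hs : ∀ a b, Nx a b → ∀ x, s b x + 1 ≤ s a x) (S : Finset J)
    (hc : ∀ j ∈ S, Continuous (s j))
    (hF : ∀ j, ∃ j₀ ∈ S, ∃ h : T ≃ₜ T, ∀ x, s j (h x) = s j₀ x)
    (hT : rcyc k T (n + 1) ≤ (On univ).B k (n + 1)) (a : ℝ) {b : ℝ}
    (hq : ∀ j ∈ S, ∃ c, FR ((On (Sd s j b)).ch k (n + 1) ⊓ rcyc k T (n + 1))
      ((On (Sd s j c)).B k (n + 1))) :
    ∃ N : ℕ, ∀ m, N ≤ m → ∀ j j', St Nx m j j' → ∀ (A : Type) [AddCommGroup A] [Module k A],
      (On (Sd s j a)).Z k A (n + 1) ≤ (On (Sd s j' b)).Ex k A (n + 1) := by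
  obtain ⟨N, hN⟩ := nil_hom hs S hc hF hT a hq
  exact ⟨N, fun m hm j j' h A _ _ φ hφ => Det.ex_of_cyc _ φ fun _ hc h0 =>
    Sb.ev_B hφ (hN m hm j j' h ⟨hc, h0⟩)⟩

end top

end Crest.Agent.N255.Dp

end
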